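import Vale.Agent.P109.Spectral.Defs

/-!
P109: interfaces for the model of a system with pure point spectrum of finite rank.
-/

namespace Vale.Agent.P109.Spectral

open MeasureTheory Filter Topology
open scoped Manifold

noncomputable section

/-- coordinates: `d` rotation coordinates, the sector coordinate and the vertical coordinate -/
abbrev Ix (d : ℕ) := Fin d ⊕ Fin 2

/-- labels: `d` rotation coordinates and the sector (`none`) -/
abbrev Lab (d : ℕ) := Tor (Option (Fin d))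

/-- `S` is the conjugate by `H` of the translation by `s` -/
def IsConjRot {ι : Type} [Fintype ι] (H : TD ι) (s : ι → ℝ) (S : TD ι) : Prop :=
  (∀ x, S.f x = H.f (H.g x + s)) ∧ (∀ x, S.g x = H.f (H.g x - s)) ∧ S.IsHomotopicToId

/-- conjugates of translations exist and depend continuously on the translation in `C^j` -/
def ConjSpec : Prop :=
  (∀ (ι : Type) [Fintype ι] (H : TD ι) (s : ι → ℝ), ∃ S, IsConjRot H s S) ∧
  ∀ (ι : Type) [Fintype ι] (H : TD ι) (t : ι → ℝ) (j : ℕ) (ε : ℝ), 0 < ε →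
    ∃ δ > 0, ∀ (s : ι → ℝ) (S T : TD ι), ‖s - t‖ < δ → IsConjRot H s S → IsConjRot H t T →
      DClose j ε S T

/-- limits of fast converging sequences of diffeomorphisms -/
def LimitSpec : Prop :=
  ∀ (ι : Type) [Fintype ι] (S : ℕ → TD ι), (∀ n, (S n).IsHomotopicToId) →
    (∀ n, DClose n ((1 / 2) ^ n) (S (n + 1)) (S n)) →
    ∃ T : TD ι, ∀ ε > 0, ∃ N, ∀ n ≥ N, ∀ x, dist ((S n).map x) (T.map x) ≤ ε

/-- the Borel structure on the circle -/
scoped instance circMeasurable : MeasurableSpace Circle := borel Circle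

scoped instance circBorel : BorelSpace Circle := ⟨rfl⟩

/-- the torus as a product of circles -/
def toCircles {d : ℕ} : Tor (Ix d) → (Ix d → Circle) := fun x i => AddCircle.toCircle (x i)

/-- Lebesgue measure on the product of circles -/
def circVol (d : ℕ) : Measure (Ix d → Circle) :=
  (volume.restrict (Set.univ.pi fun _ : Ix d => Set.Ico (0 : ℝ) 1)).map
    fun x i => Circle.exp (2 * Real.pi * x i)

/-- a torus diffeomorphism is a diffeomorphism of the manifold, preserving Lebesgue measure -/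
def ManifoldSpec : Prop :=
  ∀ (d : ℕ) (T : TD (Ix d)), ∃ S : (Ix d → Circle) ≃ (Ix d → Circle),
    ContMDiff (ModelWithCorners.pi fun _ : Ix d => 𝓡 1)
      (ModelWithCorners.pi fun _ : Ix d => 𝓡 1) (⊤ : ℕ∞) S ∧
    ContMDiff (ModelWithCorners.pi fun _ : Ix d => 𝓡 1)
      (ModelWithCorners.pi fun _ : Ix d => 𝓡 1) (⊤ : ℕ∞) S.symm ∧
    MeasurePreserving S (circVol d) (circVol d) ∧
    MeasurePreserving (toCircles (d := d)) volume (circVol d) ∧
    ∀ x, S (toCircles x) = toCircles (T.map x)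

/-- a stage: translation data and the conjugacy -/
structure Stage (d : ℕ) where
  q : ℕ
  q_pos : 0 < q
  β : Fin d → ℝ
  indep : ∀ (c : Fin d → ℤ) (k : ℤ), ∑ i, (c i : ℝ) * β i = (k : ℝ) → c = 0
  /-- the choice of the real lift of the translation -/
  k : Ix d → ℤ
  H : TD (Ix d)

/-- the translation vector of a stage -/
def Stage.vec {d : ℕ} (σ : Stage d) : Ix d → ℝ :=
  Sum.elim σ.β ![(1 : ℝ) / σ.q, 0] + intVec σ.k

/-- the eigenvalues of a stage -/
def Stage.grp {d : ℕ} (σ : Stage d) : AddSubgroup UnitAddCircle :=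
  AddSubgroup.closure (Set.range (fun i => (σ.β i : UnitAddCircle)) ∪
    {(((1 : ℝ) / σ.q : ℝ) : UnitAddCircle)})

/-- the sector of a point -/
def sector (q : ℕ) (a : UnitAddCircle) : UnitAddCircle :=
  (((⌊(q : ℝ) * (AddCircle.equivIco (1 : ℝ) 0 a : ℝ)⌋ : ℝ) / q : ℝ) : UnitAddCircle)

/-- labels in the coordinates of the stage -/
def labCoord {d : ℕ} (q : ℕ) (z : Tor (Ix d)) : Lab d :=
  fun o => o.elim (sector q (z (Sum.inr 0))) fun i => z (Sum.inl i)

/-- the label of a point -/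
def Stage.lab {d : ℕ} (σ : Stage d) (x : Tor (Ix d)) : Lab d :=
  labCoord σ.q (σ.H.map.symm x)

/-- an extension of the eigenvalues of `σ` by the small number `v` -/
structure Ext {d : ℕ} (σ : Stage d) where
  q : ℕ
  r : ℕ
  q_eq : q = σ.q * r
  r_pos : 0 < r
  β : Fin d → ℝ
  indep : ∀ (c : Fin d → ℤ) (k : ℤ), ∑ i, (c i : ℝ) * β i = (k : ℝ) → c = 0
  v : ℝ
  A : Fin d → Fin d → ℤ
  c : Fin d → ℤ
  a : Fin d → ℤ
  e : ℤ
  old_eq : ∀ i, (σ.β i : UnitAddCircle) =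
    (((∑ k, (A i k : ℝ) * β k) + (c i : ℝ) / q : ℝ) : UnitAddCircle)
  v_eq : (v : UnitAddCircle) = (((∑ k, (a k : ℝ) * β k) + (e : ℝ) / q : ℝ) : UnitAddCircle)
  generated : AddSubgroup.closure (Set.range (fun i => (β i : UnitAddCircle)) ∪
      {(((1 : ℝ) / q : ℝ) : UnitAddCircle)}) ≤ σ.grp ⊔ AddSubgroup.zmultiples (v : UnitAddCircle)
  kind : r = 1 ∨ (β = σ.β ∧ v = 1 / (q : ℝ))

/-- the old label as a function of the new one -/
def Ext.pull {d : ℕ} {σ : Stage d} (X : Ext σ) (p : Lab d) : Lab d :=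
  fun o => o.elim (X.r • p none) fun i => (∑ k, X.A i k • p (some k)) + X.c i • p none

/-- one step -/
def StepSpec : Prop :=
  ∀ (d : ℕ) (σ : Stage d) (j : ℕ) (ε : ℝ), 0 < ε →
    ∃ δ > 0, ∃ M : ℕ, ∀ X : Ext σ, |X.v| < δ →
      ∃ τ : Stage d, τ.q = X.q ∧ τ.β = X.β ∧
        (∀ S T : TD (Ix d), IsConjRot τ.H τ.vec S → IsConjRot σ.H σ.vec T → DClose j ε S T) ∧
        MClose volume ε (fun x => X.pull (τ.lab x)) σ.lab ∧
        ((∀ k : ℕ, 0 < k → k < M → k • (X.v : UnitAddCircle) ∉ σ.grp) →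
          ∃ r : Lab d → Tor (Ix d), Continuous r ∧ MClose volume ε (fun x => r (τ.lab x)) id)

/-- equivariance on finitely many eigenvalues -/
def EqvOn {Λ : AddSubgroup UnitAddCircle} (E : Finset Λ) {X : Type*} (T : X → X)
    (F : X → Λ → UnitAddCircle) : Prop :=
  ∀ x, ∀ a ∈ E, F (T x) a = F x a + (a : UnitAddCircle)

/-- stagewise labels converging fast give the isomorphism with the rotation on the dual -/
def IsoSpec : Prop :=
  ∀ (ι : Type) [Fintype ι] (Λ : AddSubgroup UnitAddCircle) [Countable Λ]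
    (T : Tor ι ≃ₜ Tor ι) (Tn : ℕ → Tor ι ≃ₜ Tor ι)
    (E : ℕ → Finset Λ) (F : ℕ → Tor ι → Λ → UnitAddCircle)
    (r : ℕ → (Λ → UnitAddCircle) → Tor ι),
    MeasurePreserving T volume volume →
    (∀ n, MeasurePreserving (Tn n) volume volume) →
    (∀ ε > 0, ∃ N, ∀ n ≥ N, ∀ x, dist (Tn n x) (T x) ≤ ε) →
    Monotone E → (∀ a : Λ, ∃ n, a ∈ E n) →
    (∀ n a, Measurable fun x => F n x a) →
    (∀ n, EqvOn (E n) (Tn n) (F n)) →
    (∀ n, ∀ a ∈ E n, ∀ b ∈ E n, a + b ∈ E n → ∀ x, F n x (a + b) = F n x a + F n x b) →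
    (∀ n (χ : Hom Λ), (volume : Measure (Tor ι)).map (fun x (a : E n) => F n x a + χ.1 a) =
      (volume : Measure (Tor ι)).map (fun x (a : E n) => F n x a)) →
    (∀ n, ∀ a ∈ E n, MClose volume ((1 / 2) ^ n) (fun x => F (n + 1) x a) (fun x => F n x a)) →
    (∀ n, Continuous (r n)) →
    (∀ N, ∃ n ≥ N, ∀ p > n, MClose volume ((1 / 2) ^ n) (fun x => r n (F p x)) id) →
    ∃ (μ : Measure (Hom Λ)) (Φ : Tor ι → Hom Λ) (Ψ : Hom Λ → Tor ι),
      IsProbabilityMeasure μ ∧ (∀ χ, MeasurePreserving (homAdd χ) μ μ) ∧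
      MeasurePreserving Φ volume μ ∧ MeasurePreserving Ψ μ volume ∧
      (Ψ ∘ Φ =ᵐ[volume] id) ∧ (Φ ∘ Ψ =ᵐ[μ] id) ∧ Φ ∘ T =ᵐ[volume] homAdd (incl Λ) ∘ Φ

/-- the hand-in statement -/
def Target : Prop :=
  ∀ Λ : AddSubgroup UnitAddCircle, Countable Λ → ¬ Λ.FG →
    (∃ (d : ℕ) (b : Fin d → Λ), ∀ a : Λ, ∃ n : ℕ, 0 < n ∧ ∃ c : Fin d → ℤ, n • a = ∑ i, c i • b i) →
    ∃ (d : ℕ) (S : (Ix d → Circle) ≃ (Ix d → Circle)),
      ContMDiff (ModelWithCorners.pi fun _ : Ix d => 𝓡 1)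
        (ModelWithCorners.pi fun _ : Ix d => 𝓡 1) (⊤ : ℕ∞) S ∧
      ContMDiff (ModelWithCorners.pi fun _ : Ix d => 𝓡 1)
        (ModelWithCorners.pi fun _ : Ix d => 𝓡 1) (⊤ : ℕ∞) S.symm ∧
      MeasurePreserving S (circVol d) (circVol d) ∧
      ∃ (μ : Measure (Hom Λ)) (Φ : (Ix d → Circle) → Hom Λ) (Ψ : Hom Λ → (Ix d → Circle)),
        IsProbabilityMeasure μ ∧ (∀ χ, MeasurePreserving (homAdd χ) μ μ) ∧
        MeasurePreserving Φ (circVol d) μ ∧ MeasurePreserving Ψ μ (circVol d) ∧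
        (Ψ ∘ Φ =ᵐ[circVol d] id) ∧ (Φ ∘ Ψ =ᵐ[μ] id) ∧
        Φ ∘ S =ᵐ[circVol d] homAdd (incl Λ) ∘ Φ

/-- the assembly -/
def RecursionSpec : Prop :=
  ConjSpec → LimitSpec → ManifoldSpec → StepSpec → IsoSpec → Target

end

end Vale.Agent.P109.Spectral
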