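import Vale.Agent.P109.Spectral.Defs

/-!
P109: composition, inverses, translations and integer linear maps of the torus.
-/

namespace Vale.Agent.P109.Spectral

open MeasureTheory

noncomputable section

variable {ι : Type}

theorem proj_surjective (z : Tor ι) : ∃ x, proj x = z := by
  choose x hx using fun i => QuotientAddGroup.mk_surjective (z i)
  exact ⟨x, funext hx⟩

@[simp] theorem proj_add (x y : ι → ℝ) : proj (x + y) = proj x + proj y := rfl

theorem proj_intVec (k : ι → ℤ) : proj (intVec k) = 0 := by
  funext i
  change ((k i : ℝ) : UnitAddCircle) = 0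
  rw [AddCircle.coe_eq_zero_iff]
  exact ⟨k i, by simp⟩

theorem intVec_add (k l : ι → ℤ) : intVec (k + l) = intVec k + intVec l := by
  funext i; simp [intVec]

variable [Fintype ι]

theorem TD.map_symm_proj (D : TD ι) (x : ι → ℝ) : D.map.symm (proj x) = proj (D.g x) := by
  rw [Homeomorph.symm_apply_eq, D.map_proj, D.fg]

theorem TD.equivariant_g (D : TD ι) (x : ι → ℝ) (k : ι → ℤ) :
    D.g (x + intVec k) = D.g x + intVec (D.A.symm k) := by
  have h := D.equivariant (D.g x) (D.A.symm k)
  rw [D.fg, AddEquiv.apply_symm_apply] at h
  rw [← h, D.gf]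

/-- the inverse -/
def TD.symm (D : TD ι) : TD ι where
  f := D.g
  g := D.f
  A := D.A.symm
  smooth_f := D.smooth_g
  smooth_g := D.smooth_f
  gf := D.fg
  fg := D.gf
  equivariant := D.equivariant_g
  map := D.map.symm
  map_proj := D.map_symm_proj
  preserves := MeasurePreserving.symm D.map.toMeasurableEquiv D.preserves

/-- composition (first `E`, then `D`) -/
def TD.comp (D E : TD ι) : TD ι where
  f := D.f ∘ E.f
  g := E.g ∘ D.g
  A := E.A.trans D.A
  smooth_f := D.smooth_f.comp E.smooth_f
  smooth_g := E.smooth_g.comp D.smooth_g
  gf x := by simp [D.gf, E.gf]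
  fg x := by simp [D.fg, E.fg]
  equivariant x k := by simp [E.equivariant, D.equivariant]
  map := E.map.trans D.map
  map_proj x := by simp [E.map_proj, D.map_proj]
  preserves := D.preserves.comp E.preserves

/-- the identity -/
def TD.one : TD ι where
  f := id
  g := id
  A := AddEquiv.refl _
  smooth_f := contDiff_id
  smooth_g := contDiff_id
  gf _ := rfl
  fg _ := rfl
  equivariant _ _ := rfl
  map := Homeomorph.refl _
  map_proj _ := rfl
  preserves := MeasurePreserving.id _

/-- a translation -/
def TD.rot (t : ι → ℝ) : TD ι where
  f x := x + t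
  g x := x - t
  A := AddEquiv.refl _
  smooth_f := contDiff_id.add contDiff_const
  smooth_g := contDiff_id.sub contDiff_const
  gf x := add_sub_cancel_right x t
  fg x := sub_add_cancel x t
  equivariant x k := by simp [add_right_comm]
  map := Homeomorph.addRight (proj t)
  map_proj _ := rfl
  preserves := measurePreserving_add_right volume (proj t)

/-- an integer linear map with an integer inverse -/
def TD.lin (M N : Matrix ι ι ℤ) [DecidableEq ι] (hMN : M * N = 1) (hNM : N * M = 1) : TD ι :=
  let ML : Tor ι →+ Tor ι :=
    { toFun := fun z i => ∑ j, M i j • z j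
      map_zero' := by funext i; simp
      map_add' := fun z w => by funext i; simp [Finset.sum_add_distrib] }
  let NL : Tor ι →+ Tor ι :=
    { toFun := fun z i => ∑ j, N i j • z j
      map_zero' := by funext i; simp
      map_add' := fun z w => by funext i; simp [Finset.sum_add_distrib] }
  have key : ∀ (P Q : Matrix ι ι ℤ), P * Q = 1 → ∀ (z : Tor ι) (i : ι),
      ∑ j, P i j • ∑ k, Q j k • z k = z i := by
    intro P Q h z i
    simp only [Finset.smul_sum, smul_smul]
    rw [Finset.sum_comm]
    simp only [← Finset.sum_smul, ← Matrix.mul_apply, h, Matrix.one_apply, ite_smul, one_smul,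
      zero_smul, Finset.sum_ite_eq, Finset.mem_univ, if_true]
  have keyR : ∀ (P Q : Matrix ι ι ℤ), P * Q = 1 → ∀ (z : ι → ℝ) (i : ι),
      ∑ j, (P i j : ℝ) * ∑ k, (Q j k : ℝ) * z k = z i := by
    intro P Q h z i
    simp only [Finset.mul_sum, ← mul_assoc]
    rw [Finset.sum_comm]
    simp only [← Finset.sum_mul, ← Int.cast_mul, ← Int.cast_sum, ← Matrix.mul_apply, h,
      Matrix.one_apply, Int.cast_ite, Int.cast_one, Int.cast_zero, ite_mul, one_mul, zero_mul,
      Finset.sum_ite_eq, Finset.mem_univ, if_true]
  { f := fun x i => ∑ j, (M i j : ℝ) * x j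
    g := fun x i => ∑ j, (N i j : ℝ) * x j
    A :=
      { toFun := fun k => M.mulVec k
        invFun := fun k => N.mulVec k
        left_inv := fun k => by simp [Matrix.mulVec_mulVec, hNM]
        right_inv := fun k => by simp [Matrix.mulVec_mulVec, hMN]
        map_add' := fun k l => Matrix.mulVec_add M k l }
    smooth_f := contDiff_pi.mpr fun i =>
      ContDiff.sum fun j _ => contDiff_const.mul (contDiff_apply ℝ ℝ j)
    smooth_g := contDiff_pi.mpr fun i =>
      ContDiff.sum fun j _ => contDiff_const.mul (contDiff_apply ℝ ℝ j)
    gf := fun x => funext fun i => keyR N M hNM x i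
    fg := fun x => funext fun i => keyR M N hMN x i
    equivariant := fun x k => by
      funext i
      simp [intVec, Matrix.mulVec, dotProduct, mul_add, Finset.sum_add_distrib]
    map :=
      { toFun := ML
        invFun := NL
        left_inv := fun z => funext fun i => key N M hNM z i
        right_inv := fun z => funext fun i => key M N hMN z i
        continuous_toFun := continuous_pi fun i =>
          continuous_finsetSum _ fun j _ => (continuous_apply j).zsmul _
        continuous_invFun := continuous_pi fun i =>
          continuous_finsetSum _ fun j _ => (continuous_apply j).zsmul _ }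
    map_proj := fun x => by
      funext i
      change (∑ j, M i j • ((x j : ℝ) : UnitAddCircle)) = ((∑ j, (M i j : ℝ) * x j : ℝ) : UnitAddCircle)
      simp only [← QuotientAddGroup.mk_zsmul, zsmul_eq_mul]
      exact (map_sum (QuotientAddGroup.mk' (AddSubgroup.zmultiples (1 : ℝ))) _ _).symm
    preserves := AddMonoidHom.measurePreserving
      (f := ML)
      (continuous_pi fun i => continuous_finsetSum _ fun j _ => (continuous_apply j).zsmul _)
      (fun z => ⟨NL z, funext fun i => key M N hMN z i⟩) rfl }

end

end Vale.Agent.P109.Spectral
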