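import Mathlib

/-!
P109: tori, lifted diffeomorphisms and the target for systems with pure point spectrum of finite rank.
-/

namespace Vale.Agent.P109.Spectral

open MeasureTheory

noncomputable section

/-- the torus with coordinates in `ι` -/
abbrev Tor (ι : Type) := ι → UnitAddCircle

/-- projection of lifts to the torus -/
def proj {ι : Type} (x : ι → ℝ) : Tor ι := fun i => (x i : UnitAddCircle)

/-- integer vectors -/
def intVec {ι : Type} (k : ι → ℤ) : ι → ℝ := fun i => (k i : ℝ)

/-- a volume preserving diffeomorphism of the torus, with lifts in both directions -/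
structure TD (ι : Type) [Fintype ι] where
  f : (ι → ℝ) → (ι → ℝ)
  g : (ι → ℝ) → (ι → ℝ)
  A : (ι → ℤ) ≃+ (ι → ℤ)
  smooth_f : ContDiff ℝ (⊤ : ℕ∞) f
  smooth_g : ContDiff ℝ (⊤ : ℕ∞) g
  gf : ∀ x, g (f x) = x
  fg : ∀ x, f (g x) = x
  equivariant : ∀ x k, f (x + intVec k) = f x + intVec (A k)
  map : Tor ι ≃ₜ Tor ι
  map_proj : ∀ x, map (proj x) = proj (f x)
  preserves : MeasurePreserving map volume volume

/-- the translation by `t` is represented by `R` -/
def IsRot {ι : Type} [Fintype ι] (t : ι → ℝ) (R : TD ι) : Prop :=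
  (∀ x, R.f x = x + t) ∧ ∀ x, R.g x = x - t

/-- two lifts are `ε`-close to order `j` -/
def LiftClose {ι : Type} [Fintype ι] (j : ℕ) (ε : ℝ) (a b : (ι → ℝ) → (ι → ℝ)) : Prop :=
  ∀ i ≤ j, ∀ x, ‖iteratedFDeriv ℝ i (fun z => a z - b z) x‖ ≤ ε

/-- the lift commutes with integer translations -/
def TD.IsHomotopicToId {ι : Type} [Fintype ι] (S : TD ι) : Prop := ∀ k, S.A k = k

/-- closeness of diffeomorphisms and of their inverses -/
def DClose {ι : Type} [Fintype ι] (j : ℕ) (ε : ℝ) (S T : TD ι) : Prop :=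
  LiftClose j ε S.f T.f ∧ LiftClose j ε S.g T.g

/-- outside a set of measure `ε`, two maps are `ε`-close -/
def MClose {α β : Type*} [MeasurableSpace α] [PseudoMetricSpace β] (μ : Measure α) (ε : ℝ)
    (f g : α → β) : Prop :=
  μ {x | ε < dist (f x) (g x)} ≤ ENNReal.ofReal ε

/-- `F` is a limit in measure of diffeomorphisms satisfying `P` -/
def Approximable {ι : Type} [Fintype ι] (P : TD ι → Prop) (F : Tor ι → Tor ι) : Prop :=
  ∀ ε > 0, ∃ D : TD ι, P D ∧ MClose volume ε D.map F

/-- `D` commutes with the translation by `t` (as lifts) -/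
def Comm {ι : Type} [Fintype ι] (t : ι → ℝ) (D : TD ι) : Prop :=
  ∀ x, D.f (x + t) = D.f x + t

/-- the dual of a group of eigenvalues -/
abbrev Hom (Γ : Type*) [AddCommGroup Γ] :=
  {χ : Γ → UnitAddCircle // ∀ a b, χ (a + b) = χ a + χ b}

/-- translation on the dual -/
def homAdd {Γ : Type*} [AddCommGroup Γ] (s χ : Hom Γ) : Hom Γ :=
  ⟨fun a => s.1 a + χ.1 a, fun a b => by simp only [s.2 a b, χ.2 a b]; abel⟩

/-- the inclusion of eigenvalues, as a point of the dual -/
def incl (Λ : AddSubgroup UnitAddCircle) : Hom Λ :=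
  ⟨fun a => (a : UnitAddCircle), fun _ _ => rfl⟩

end

end Vale.Agent.P109.Spectral
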