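import Vale.Agent.P109.Spectral.Spec

/-!
P109: stagewise labels that converge fast give an isomorphism with the rotation on the dual.
-/

namespace Vale.Agent.P109.Spectral

open MeasureTheory Filter Topology Set
open scoped BoundedContinuousFunction

noncomputable section

private instance circleProb : IsProbabilityMeasure (volume : Measure UnitAddCircle) :=
  ⟨by simp⟩

/-- The extension by zero of finitely many coordinates. -/
private def extZero {A : Type*} [DecidableEq A] (s : Finset A) (v : s → UnitAddCircle) :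
    A → UnitAddCircle :=
  fun a => if h : a ∈ s then v ⟨a, h⟩ else 0

private theorem measurable_extZero {A : Type*} [DecidableEq A] (s : Finset A) :
    Measurable (extZero s) := by
  refine measurable_pi_lambda _ fun a => ?_
  unfold extZero
  by_cases h : a ∈ s
  · simpa [h] using measurable_pi_apply (⟨a, h⟩ : s)
  · simp [h]

theorem ae_exists_limit {X : Type*} [MeasurableSpace X] {μ : Measure X} {f : ℕ → X → UnitAddCircle}
    {N : ℕ} (hf : ∀ n ≥ N, MClose μ ((1 / 2) ^ n) (f (n + 1)) (f n)) :
    ∀ᵐ x ∂μ, ∃ l, Tendsto (fun n => f n x) atTop (𝓝 l) := by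
  obtain ⟨s, hs⟩ : ∃ s : ℕ → Set X,
      s = fun n => {x | (1 / 2 : ℝ) ^ (n + N) < dist (f (n + N + 1) x) (f (n + N) x)} := ⟨_, rfl⟩
  have hsum : Summable fun n : ℕ => (1 / 2 : ℝ) ^ (n + N) := by
    simpa [pow_add] using summable_geometric_two.mul_right ((1 / 2 : ℝ) ^ N)
  have hfin : ∑' n, μ (s n) ≠ ⊤ := by
    refine ne_top_of_le_ne_top ?_ (ENNReal.tsum_le_tsum fun n => ?_)
      (a := ∑' n : ℕ, μ (s n)) (b := ∑' n : ℕ, ENNReal.ofReal ((1 / 2 : ℝ) ^ (n + N)))
    · rw [← ENNReal.ofReal_tsum_of_nonneg (fun n => by positivity) hsum]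
      exact ENNReal.ofReal_ne_top
    · rw [hs]
      exact hf (n + N) (Nat.le_add_left N n)
  filter_upwards [ae_eventually_notMem hfin] with x hx
  obtain ⟨K, hK⟩ := eventually_atTop.1 hx
  have hc : CauchySeq fun n => f (n + (K + N)) x := by
    refine cauchySeq_of_dist_le_of_summable (fun n => (1 / 2 : ℝ) ^ (n + (K + N))) (fun n => ?_) ?_
    · have h := hK (n + K) (Nat.le_add_left K n)
      rw [hs] at h
      simp only [Set.mem_ofPred_eq, not_lt] at h
      rw [dist_comm]
      simpa [add_assoc, add_comm, add_left_comm] using h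
    · simpa [pow_add] using summable_geometric_two.mul_right ((1 / 2 : ℝ) ^ (K + N))
  obtain ⟨l, hl⟩ := cauchySeq_tendsto_of_complete hc
  exact ⟨l, (tendsto_add_atTop_iff_nat (K + N)).1 hl⟩

theorem isoSpec : IsoSpec := by
  intro ι _ Λ _ T Tn E F r hT hTn hconv hmono hex hmeas heqv hadd hlaw hclose hr hfreq
  classical
  have hev : ∀ a : Λ, ∀ᶠ n in atTop, a ∈ E n := fun a => by
    obtain ⟨n, hn⟩ := hex a
    exact eventually_atTop.2 ⟨n, fun m hm => hmono hm hn⟩
  -- the limit
  have hlim : ∀ a : Λ, ∃ G : Tor ι → UnitAddCircle, Measurable G ∧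
      ∀ᵐ x, Tendsto (fun n => F n x a) atTop (𝓝 (G x)) := fun a => by
    obtain ⟨N, hN⟩ := hex a
    exact measurable_limit_of_tendsto_metrizable_ae (fun n => (hmeas n a).aemeasurable)
      (ae_exists_limit fun n hn => hclose n a (hmono hn hN))
  choose G' hGm' hGt' using hlim
  obtain ⟨G, hG⟩ : ∃ G : Tor ι → Λ → UnitAddCircle, G = fun x a => G' a x := ⟨_, rfl⟩
  have hGm : Measurable G := hG ▸ measurable_pi_lambda _ fun a => hGm' a
  have hGt : ∀ᵐ x, ∀ a, Tendsto (fun n => F n x a) atTop (𝓝 (G x a)) := by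
    rw [hG]; exact ae_all_iff.2 hGt'
  -- the map to the dual
  obtain ⟨S, hS⟩ : ∃ S : Set (Tor ι), S = {x | ∀ a b : Λ, G x (a + b) = G x a + G x b} := ⟨_, rfl⟩
  have hSm : MeasurableSet S := by
    rw [hS, Set.ofPred_forall]
    refine MeasurableSet.iInter fun a => ?_
    rw [Set.ofPred_forall]
    exact MeasurableSet.iInter fun b => measurableSet_eq_fun ((measurable_pi_apply _).comp hGm)
      (((measurable_pi_apply _).comp hGm).add ((measurable_pi_apply _).comp hGm))
  have hSae : ∀ᵐ x, x ∈ S := by
    filter_upwards [hGt] with x hx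
    rw [hS]
    intro a b
    refine tendsto_nhds_unique ((hx (a + b)).congr' ?_) ((hx a).add (hx b))
    filter_upwards [hev a, hev b, hev (a + b)] with n h1 h2 h3
    exact hadd n a h1 b h2 h3 x
  obtain ⟨G₀, hG₀⟩ : ∃ G₀ : Tor ι → Λ → UnitAddCircle,
      G₀ = fun x => if x ∈ S then G x else fun _ => 0 := ⟨_, rfl⟩
  have hG₀m : Measurable G₀ := hG₀ ▸ Measurable.ite hSm hGm measurable_const
  have hG₀add : ∀ x (a b : Λ), G₀ x (a + b) = G₀ x a + G₀ x b := by
    intro x a b
    rw [hG₀]
    by_cases hx : x ∈ S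
    · simp only [if_pos hx]
      rw [hS] at hx
      exact hx a b
    · simp [if_neg hx]
  obtain ⟨Φ, hΦ⟩ : ∃ Φ : Tor ι → Hom Λ, Φ = fun x => ⟨G₀ x, hG₀add x⟩ := ⟨_, rfl⟩
  have hΦm : Measurable Φ := hΦ ▸ hG₀m.subtype_mk
  have hΦval : ∀ᵐ x, (Φ x).1 = G x := by
    filter_upwards [hSae] with x hx
    rw [hΦ]
    show G₀ x = G x
    rw [hG₀]
    exact if_pos hx
  obtain ⟨μ, hμ⟩ : ∃ μ : Measure (Hom Λ), μ = volume.map Φ := ⟨_, rfl⟩
  have hμP : IsProbabilityMeasure μ := hμ ▸ Measure.isProbabilityMeasure_map hΦm.aemeasurable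
  have hΦmp : MeasurePreserving Φ volume μ := ⟨hΦm, hμ.symm⟩
  have hmeasAdd : ∀ χ : Hom Λ, Measurable (homAdd χ) := fun χ =>
    (measurable_pi_lambda _ fun a =>
      (((measurable_pi_apply a).comp measurable_subtype_coe).const_add (χ.1 a))).subtype_mk
  -- invariance
  have hinv : ∀ χ : Hom Λ, MeasurePreserving (homAdd χ) μ μ := by
    intro χ
    have hsum : Measurable fun x a => χ.1 a + G x a :=
      measurable_pi_lambda _ fun a => ((measurable_pi_apply a).comp hGm).const_add _
    have key : (volume : Measure (Tor ι)).map (fun x a => χ.1 a + G x a) = volume.map G := by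
      have := Measure.isProbabilityMeasure_map (μ := (volume : Measure (Tor ι))) hsum.aemeasurable
      have := Measure.isProbabilityMeasure_map (μ := (volume : Measure (Tor ι))) hGm.aemeasurable
      refine ext_of_forall_integral_eq_of_IsFiniteMeasure fun f => ?_
      rw [integral_map hsum.aemeasurable f.continuous.aestronglyMeasurable,
        integral_map hGm.aemeasurable f.continuous.aestronglyMeasurable]
      obtain ⟨Q, hQ⟩ : ∃ Q : ℕ → Hom Λ → Tor ι → Λ → UnitAddCircle, Q = fun n c x =>
          extZero (E n) fun a => F n x a + c.1 a := ⟨_, rfl⟩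
      have hQm : ∀ (n : ℕ) (c : Hom Λ), Measurable fun x (a : E n) => F n x a + c.1 a := fun n c =>
        measurable_pi_lambda _ fun a => (hmeas n a).add_const _
      have hzero : ∀ n, (volume : Measure (Tor ι)).map (fun x (a : E n) => F n x a + χ.1 a) =
          volume.map (fun x (a : E n) => F n x a + (0 : UnitAddCircle)) := fun n => by
        simp only [add_zero]; exact hlaw n χ
      obtain ⟨z, hz⟩ : ∃ z : Hom Λ, z = ⟨fun _ => 0, fun _ _ => (add_zero 0).symm⟩ := ⟨_, rfl⟩
      have hint : ∀ n, ∫ x, f (Q n χ x) = ∫ x, f (Q n z x) := fun n => by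
        have e : ∀ c : Hom Λ, ∫ x, f (Q n c x) =
            ∫ v, f v ∂((volume.map fun x (a : E n) => F n x a + c.1 a).map (extZero (E n))) := by
          intro c
          rw [Measure.map_map (measurable_extZero _) (hQm n c),
            integral_map ((measurable_extZero _).comp (hQm n c)).aemeasurable
              f.continuous.aestronglyMeasurable, hQ]
          rfl
        rw [e, e]
        congr 2
        rw [hz]
        exact hzero n
      have hlimQ : ∀ c : Hom Λ,
          Tendsto (fun n => ∫ x, f (Q n c x)) atTop (𝓝 (∫ x, f (fun a => c.1 a + G x a))) := by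
        intro c
        refine tendsto_integral_of_dominated_convergence (fun _ => ‖f‖) (fun n => ?_)
          (integrable_const _) (fun n => Eventually.of_forall fun x => f.norm_coe_le_norm _) ?_
        · rw [hQ]
          exact (f.continuous.measurable.comp
            ((measurable_extZero _).comp (hQm n c))).aestronglyMeasurable
        · filter_upwards [hGt] with x hx
          refine (f.continuous.tendsto _).comp (tendsto_pi_nhds.2 fun a => ?_)
          refine ((hx a).const_add (c.1 a)).congr' ?_
          filter_upwards [hev a] with n hn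
          rw [hQ]
          simp [extZero, hn, add_comm]
      have h1 := hlimQ χ
      simp only [hint] at h1
      have h2 := hlimQ z
      rw [tendsto_nhds_unique h1 h2, hz]
      simp only [zero_add]
    refine ⟨hmeasAdd χ, Measure.ext fun s hs => ?_⟩
    obtain ⟨t, ht, rfl⟩ := hs
    have e := congrArg (fun m : Measure (Λ → UnitAddCircle) => m t) key
    simp only [Measure.map_apply hsum ht, Measure.map_apply hGm ht] at e
    have m1 : MeasurableSet (Subtype.val ⁻¹' t : Set (Hom Λ)) := measurable_subtype_coe ht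
    rw [hμ, Measure.map_map (hmeasAdd χ) hΦm, Measure.map_apply ((hmeasAdd χ).comp hΦm) m1,
      Measure.map_apply hΦm m1]
    refine (measure_congr ?_).trans (e.trans (measure_congr ?_).symm)
    · filter_upwards [hΦval] with x hx
      show ((homAdd χ (Φ x)).1 ∈ t) = ((fun a => χ.1 a + G x a) ∈ t)
      rw [show (homAdd χ (Φ x)).1 = fun a => χ.1 a + G x a from by
        funext a; simp [homAdd, hx]]
    · filter_upwards [hΦval] with x hx
      show ((Φ x).1 ∈ t) = (G x ∈ t)
      rw [hx]
  -- equivariance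
  have hequiv : Φ ∘ T =ᵐ[volume] homAdd (incl Λ) ∘ Φ := by
    have hstep : ∀ a : Λ, ∀ᵐ x, G (T x) a = G x a + (a : UnitAddCircle) := by
      intro a
      obtain ⟨u, hu⟩ : ∃ u : (Tor ι → UnitAddCircle) → Tor ι → ℂ,
          u = fun g x => (AddCircle.toCircle (g x) : ℂ) := ⟨_, rfl⟩
      have hum : ∀ g, Measurable g → Measurable (u g) := fun g hg => by
        rw [hu]
        exact (continuous_subtype_val.comp AddCircle.continuous_toCircle).measurable.comp hg
      have hun : ∀ g x, ‖u g x‖ = 1 := fun g x => by rw [hu]; exact Circle.norm_coe _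
      have hLp : ∀ g, Measurable g → MemLp (u g) 1 (volume : Measure (Tor ι)) := fun g hg =>
        MemLp.of_bound (hum g hg).aestronglyMeasurable 1
          (Eventually.of_forall fun x => (hun g x).le)
      have hGa : Measurable fun x => G x a := (measurable_pi_apply a).comp hGm
      let Un : ℕ → Lp ℂ 1 (volume : Measure (Tor ι)) := fun n =>
        (hLp _ (hmeas n a)).toLp (u fun x => F n x a)
      let Ul : Lp ℂ 1 (volume : Measure (Tor ι)) := (hLp _ hGa).toLp (u fun x => G x a)
      have hU : Tendsto Un atTop (𝓝 Ul) := by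
        rw [tendsto_iff_norm_sub_tendsto_zero]
        have e : ∀ n, ‖Un n - Ul‖ = ∫ x, ‖u (fun x => F n x a) x - u (fun x => G x a) x‖ := by
          intro n
          rw [L1.norm_eq_integral_norm]
          refine integral_congr_ae ?_
          filter_upwards [Lp.coeFn_sub (Un n) Ul, (hLp _ (hmeas n a)).coeFn_toLp,
            (hLp _ hGa).coeFn_toLp] with x h h1 h2
          rw [h, Pi.sub_apply, h1, h2]
        simp only [e]
        rw [← integral_zero (Tor ι) ℝ (μ := (volume : Measure (Tor ι)))]
        refine tendsto_integral_of_dominated_convergence (fun _ => 2)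
          (fun n => ((hum _ (hmeas n a)).sub (hum _ hGa)).norm.aestronglyMeasurable)
          (integrable_const _) (fun n => Eventually.of_forall fun x => ?_) ?_
        · rw [norm_norm]
          exact (norm_sub_le _ _).trans (by rw [hun, hun]; norm_num)
        · filter_upwards [hGt] with x hx
          rw [← tendsto_iff_norm_sub_tendsto_zero, hu]
          exact ((continuous_subtype_val.comp AddCircle.continuous_toCircle).tendsto _).comp (hx a)
      have hg : Tendsto (fun n => (⟨Tn n, (Tn n).continuous⟩ : C(Tor ι, Tor ι))) atTop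
          (𝓝 ⟨T, T.continuous⟩) := by
        rw [ContinuousMap.tendsto_iff_tendstoUniformly, Metric.tendstoUniformly_iff]
        intro ε hε
        obtain ⟨N, hN⟩ := hconv (ε / 2) (half_pos hε)
        filter_upwards [eventually_ge_atTop N] with n hn x
        rw [dist_comm]
        exact (hN n hn x).trans_lt (half_lt_self hε)
      have hc := hU.compMeasurePreservingLp hg (fun n => hTn n) hT ENNReal.one_ne_top
      obtain ⟨e, he⟩ : ∃ e : ℂ, e = (AddCircle.toCircle (a : UnitAddCircle) : ℂ) := ⟨_, rfl⟩
      have heq : ∀ᶠ n in atTop, Lp.compMeasurePreserving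
          (⟨Tn n, (Tn n).continuous⟩ : C(Tor ι, Tor ι)) (hTn n) (Un n) = e • Un n := by
        filter_upwards [hev a] with n hn
        refine Lp.ext ?_
        filter_upwards [Lp.coeFn_compMeasurePreserving (Un n) (hTn n),
          (hTn n).quasiMeasurePreserving.ae (hLp _ (hmeas n a)).coeFn_toLp,
          (hLp _ (hmeas n a)).coeFn_toLp, Lp.coeFn_smul e (Un n)] with x h1 h2 h3 h4
        refine h1.trans ?_
        rw [Function.comp_apply, h4, Pi.smul_apply, h3]
        refine h2.trans ?_
        rw [hu, he, smul_eq_mul]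
        show (AddCircle.toCircle (F n (Tn n x) a) : ℂ) = _
        rw [heqv n x a hn, AddCircle.toCircle_add, Circle.coe_mul, mul_comm]
      have hlim := tendsto_nhds_unique (hc.congr' heq) (hU.const_smul e)
      filter_upwards [Lp.coeFn_compMeasurePreserving Ul hT,
        hT.quasiMeasurePreserving.ae (hLp _ hGa).coeFn_toLp, (hLp _ hGa).coeFn_toLp,
        Lp.coeFn_smul e Ul, Lp.ext_iff.1 hlim] with x h1 h2 h3 h4 h5
      have h6 := (h2.symm.trans (h1.symm.trans h5)).trans h4
      rw [Pi.smul_apply, h3, hu, he, smul_eq_mul, mul_comm, ← Circle.coe_mul,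
        ← AddCircle.toCircle_add] at h6
      exact AddCircle.injective_toCircle one_ne_zero (Subtype.ext h6)
    filter_upwards [ae_all_iff.2 hstep, hT.quasiMeasurePreserving.ae hΦval, hΦval] with x hx h1 h2
    refine Subtype.ext (funext fun a => ?_)
    show (Φ (T x)).1 a = (a : UnitAddCircle) + (Φ x).1 a
    rw [h1, h2, hx, add_comm]
  -- the inverse
  choose n hnk hnr using hfreq
  have hcl : ∀ k, MClose volume ((1 / 2) ^ n k) (fun x => r (n k) (G x)) id := by
    intro k
    obtain ⟨A, hA⟩ : ∃ A : ℕ → Set (Tor ι), A = fun P => ⋂ p ≥ P,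
        {x | (1 / 2 : ℝ) ^ n k < dist (r (n k) (F p x)) x} := ⟨_, rfl⟩
    have hmonA : Monotone A := fun P P' h => by
      rw [hA]
      exact fun x hx => Set.mem_iInter₂.2 fun p hp => Set.mem_iInter₂.1 hx p (le_trans h hp)
    have hsub : {x | (1 / 2 : ℝ) ^ n k < dist (r (n k) (G x)) (id x)} ≤ᵐ[volume] ⋃ P, A P := by
      filter_upwards [hGt] with x hx hB
      have ht : Tendsto (fun p => dist (r (n k) (F p x)) x) atTop
          (𝓝 (dist (r (n k) (G x)) x)) :=
        (((hr (n k)).tendsto _).comp (tendsto_pi_nhds.2 hx)).dist tendsto_const_nhds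
      obtain ⟨P, hP⟩ := eventually_atTop.1 (ht.eventually (eventually_gt_nhds hB))
      refine Set.mem_iUnion.2 ⟨P, ?_⟩
      rw [hA]
      exact Set.mem_iInter₂.2 hP
    refine (measure_mono_ae hsub).trans ?_
    rw [hmonA.measure_iUnion]
    refine iSup_le fun P => (measure_mono ?_).trans (hnr k (max P (n k + 1)) (by omega))
    rw [hA]
    exact fun x hx => Set.mem_iInter₂.1 hx _ (le_max_left _ _)
  have hae : ∀ᵐ x, Tendsto (fun k => r (n k) (G x)) atTop (𝓝 x) := by
    have hfin : ∑' k, volume {x | (1 / 2 : ℝ) ^ n k < dist (r (n k) (G x)) (id x)} ≠ ⊤ := by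
      refine ne_top_of_le_ne_top ?_ (ENNReal.tsum_le_tsum fun k => (hcl k).trans
        (ENNReal.ofReal_le_ofReal (pow_le_pow_of_le_one (by norm_num) (by norm_num) (hnk k))))
      rw [← ENNReal.ofReal_tsum_of_nonneg (fun n => by positivity) summable_geometric_two]
      exact ENNReal.ofReal_ne_top
    filter_upwards [ae_eventually_notMem hfin] with x hx
    refine tendsto_iff_dist_tendsto_zero.2 (squeeze_zero' (Eventually.of_forall fun _ => dist_nonneg)
      ?_ (tendsto_pow_atTop_nhds_zero_of_lt_one (by norm_num : (0 : ℝ) ≤ 1 / 2) (by norm_num)))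
    filter_upwards [hx] with k hk
    simp only [not_lt, id] at hk
    exact hk.trans (pow_le_pow_of_le_one (by norm_num) (by norm_num) (hnk k))
  obtain ⟨Ψ, hΨ⟩ : ∃ Ψ : Hom Λ → Tor ι,
      Ψ = fun χ => limUnder atTop fun k => r (n k) χ.1 := ⟨_, rfl⟩
  have hΨm : Measurable Ψ := hΨ ▸ (StronglyMeasurable.limUnder (l := atTop) fun k =>
    ((hr (n k)).measurable.comp measurable_subtype_coe).stronglyMeasurable).measurable
  have hΨΦ : Ψ ∘ Φ =ᵐ[volume] id := by
    filter_upwards [hae, hΦval] with x hx h1
    rw [hΨ]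
    show limUnder atTop (fun k => r (n k) (Φ x).1) = x
    rw [h1]
    exact hx.limUnder_eq
  refine ⟨μ, Φ, Ψ, hμP, hinv, hΦmp, ⟨hΨm, ?_⟩, hΨΦ, ?_, hequiv⟩
  · rw [hμ, Measure.map_map hΨm hΦm, Measure.map_congr hΨΦ, Measure.map_id]
  · have hms : MeasurableSet {χ : Hom Λ | (Φ ∘ Ψ) χ = id χ} := by
      have e : {χ : Hom Λ | (Φ ∘ Ψ) χ = id χ} = ⋂ a, {χ : Hom Λ | (Φ (Ψ χ)).1 a = χ.1 a} := by
        ext χ
        simp [Subtype.ext_iff, funext_iff]
      rw [e]
      exact MeasurableSet.iInter fun a => measurableSet_eq_fun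
        ((measurable_pi_apply a).comp (measurable_subtype_coe.comp (hΦm.comp hΨm)))
        ((measurable_pi_apply a).comp measurable_subtype_coe)
    change ∀ᵐ χ ∂μ, (Φ ∘ Ψ) χ = id χ
    rw [hμ, ae_map_iff hΦm.aemeasurable hms]
    filter_upwards [hΨΦ] with x hx
    show Φ (Ψ (Φ x)) = Φ x
    rw [show Ψ (Φ x) = x from hx]

end

end Vale.Agent.P109.Spectral
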