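import Vale.Agent.P109.Spectral.Spec

/-!
P109: smoothness of a map of the product of circles, as a named statement.
-/

namespace Vale.Agent.P109.Spectral

open scoped Manifold

noncomputable section

/-- `f` is smooth on the manifold `Circle ^ (d + 2)` -/
def IsSmooth {d : ℕ} (f : (Ix d → Circle) → (Ix d → Circle)) : Prop :=
  ContMDiff (ModelWithCorners.pi fun _ : Ix d => 𝓡 1)
    (ModelWithCorners.pi fun _ : Ix d => 𝓡 1) (⊤ : ℕ∞) f

end

end Vale.Agent.P109.Spectral
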